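import Vale.Agent.P032.Main

/-!
P032: colourings of the plane whose classes have the Baire property (in particular Borel
colourings) need at least six colours.
-/

namespace Vale.Agent.Results.P032.BaireSixColours

open Set Filter Topology

/-- Every colouring of the Euclidean plane with five colours whose colour classes have the Baire
property has two points of one colour at distance 1. -/
theorem result (c : EuclideanSpace ℝ (Fin 2) → Fin 5)
    (hc : ∀ i, BaireMeasurableSet (c ⁻¹' {i})) :
    ∃ x y : EuclideanSpace ℝ (Fin 2), dist x y = 1 ∧ c x = c y := by
  set f := Complex.orthonormalBasisOneI.repr with hf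
  obtain ⟨x, y, h1, h2⟩ := Vale.P032.exists_unit_pair (c ∘ f) fun i => by
    rw [Set.preimage_comp]
    exact (hc i).preimage f.continuous f.toHomeomorph.isOpenMap
  exact ⟨f x, f y, by rw [f.dist_map]; exact h1, h2⟩

end Vale.Agent.Results.P032.BaireSixColours
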